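import Mathlib

/-!
# P158: independent blocks occur infinitely often (second Borel-Cantelli lemma)
-/

namespace Vale.Agent.Lib.P158

open scoped NNReal ENNReal
open MeasureTheory ProbabilityTheory Filter

/-- Abstract lemma.  `t` is an independent family with common law `G`; `Lo j`, `Hi j` are finite
index sets, all of them pairwise disjoint, of bounded size.  Then almost surely, for infinitely many
`j`, all `t e`, `e ∈ Lo j`, are at most `a` and all `t e`, `e ∈ Hi j`, are at least `b`. -/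
theorem ae_frequently_of_disjoint {Ω ι : Type*} [MeasurableSpace Ω]
    (μ : Measure Ω) [IsProbabilityMeasure μ]
    (t : ι → Ω → ℝ≥0) (ht : ∀ e, Measurable (t e)) (hind : iIndepFun t μ)
    (G : Measure ℝ≥0) (hlaw : ∀ e, μ.map (t e) = G) (a b : ℝ≥0)
    (ha : 0 < G (Set.Iic a)) (hb : 0 < G (Set.Ici b))
    (Lo Hi : ℕ → Finset ι) (n : ℕ) (hLo : ∀ j, (Lo j).card ≤ n) (hHi : ∀ j, (Hi j).card ≤ n)
    (hLH : ∀ j, Disjoint (Lo j) (Hi j))
    (hdisj : ∀ j j', j ≠ j' →
      Disjoint (Lo j) (Lo j') ∧ Disjoint (Lo j) (Hi j') ∧ Disjoint (Hi j) (Hi j')) :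
    ∀ᵐ ω ∂μ, ∃ᶠ j in atTop, (∀ e ∈ Lo j, t e ω ≤ a) ∧ (∀ e ∈ Hi j, b ≤ t e ω) := by
  classical
  -- the target set of each index
  set S : ι → Set ℝ≥0 := fun e => if ∃ j, e ∈ Lo j then Set.Iic a else Set.Ici b with hS
  have hSm : ∀ e, MeasurableSet (S e) := by
    intro e
    simp only [hS]
    split_ifs
    · exact measurableSet_Iic
    · exact measurableSet_Ici
  have hSLo : ∀ j, ∀ e ∈ Lo j, S e = Set.Iic a := by
    intro j e he
    simp only [hS]
    rw [if_pos ⟨j, he⟩]
  have hLoHi : ∀ j j', Disjoint (Lo j) (Hi j') := by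
    intro j j'
    by_cases h : j = j'
    · subst h
      exact hLH j
    · exact (hdisj j j' h).2.1
  have hSHi : ∀ j, ∀ e ∈ Hi j, S e = Set.Ici b := by
    intro j e he
    simp only [hS]
    rw [if_neg]
    rintro ⟨j', he'⟩
    exact Finset.disjoint_left.1 (hLoHi j' j) he' he
  set B : ℕ → Finset ι := fun j => Lo j ∪ Hi j with hB
  have hBd : ∀ j j', j ≠ j' → Disjoint (B j) (B j') := by
    intro j j' h
    simp only [hB]
    rw [Finset.disjoint_union_left, Finset.disjoint_union_right, Finset.disjoint_union_right]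
    exact ⟨⟨(hdisj j j' h).1, hLoHi j j'⟩, (hLoHi j' j).symm, (hdisj j j' h).2.2⟩
  set E : ℕ → Set Ω := fun j => ⋂ e ∈ B j, t e ⁻¹' S e with hE
  have hEm : ∀ j, MeasurableSet (E j) := fun j =>
    Finset.measurableSet_biInter _ fun e _ => ht e (hSm e)
  have hμE : ∀ j, μ (E j) = ∏ e ∈ B j, μ (t e ⁻¹' S e) := fun j =>
    hind.measure_inter_preimage_eq_mul (B j) fun e _ => hSm e
  have hEind : iIndepSet E μ := by
    rw [iIndepSet_iff_meas_biInter hEm]
    intro J
    have e1 : (⋂ j ∈ J, E j) = ⋂ e ∈ J.biUnion B, t e ⁻¹' S e := by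
      ext ω
      simp only [hE, Set.mem_iInter, Finset.mem_biUnion]
      constructor
      · rintro h e ⟨j, hj, he⟩
        exact h j hj e he
      · intro h j hj e he
        exact h e ⟨j, hj, he⟩
    rw [e1, hind.measure_inter_preimage_eq_mul (J.biUnion B) fun e _ => hSm e,
      Finset.prod_biUnion fun j _ j' _ h => hBd j j' h]
    exact Finset.prod_congr rfl fun j _ => (hμE j).symm
  have hmeas : ∀ e, μ (t e ⁻¹' S e) = G (S e) := by
    intro e
    rw [← hlaw e, Measure.map_apply (ht e) (hSm e)]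
  set c : ℝ≥0∞ := (min (G (Set.Iic a)) 1) ^ n * (min (G (Set.Ici b)) 1) ^ n with hc
  have hc0 : c ≠ 0 := by
    have h1 : min (G (Set.Iic a)) 1 ≠ 0 := (lt_min ha one_pos).ne'
    have h2 : min (G (Set.Ici b)) 1 ≠ 0 := (lt_min hb one_pos).ne'
    exact mul_ne_zero (pow_ne_zero _ h1) (pow_ne_zero _ h2)
  have hpow : ∀ (p : ℝ≥0∞) (k : ℕ), k ≤ n → (min p 1) ^ n ≤ p ^ k := by
    intro p k hk
    calc (min p 1) ^ n ≤ (min p 1) ^ k := pow_le_pow_right_of_le_one' (min_le_right _ _) hk
      _ ≤ p ^ k := pow_le_pow_left' (min_le_left _ _) k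
  have hlow : ∀ j, c ≤ μ (E j) := by
    intro j
    rw [hμE j]
    simp only [hB]
    rw [Finset.prod_union (hLH j)]
    have e1 : ∏ e ∈ Lo j, μ (t e ⁻¹' S e) = G (Set.Iic a) ^ (Lo j).card := by
      rw [Finset.prod_congr rfl fun e he => by rw [hmeas e, hSLo j e he], Finset.prod_const]
    have e2 : ∏ e ∈ Hi j, μ (t e ⁻¹' S e) = G (Set.Ici b) ^ (Hi j).card := by
      rw [Finset.prod_congr rfl fun e he => by rw [hmeas e, hSHi j e he], Finset.prod_const]
    rw [e1, e2]
    exact mul_le_mul' (hpow _ _ (hLo j)) (hpow _ _ (hHi j))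
  have hsum : ∑' j, μ (E j) = ∞ := by
    rw [eq_top_iff]
    calc ∞ = ∑' _ : ℕ, c := (ENNReal.tsum_const_eq_top_of_ne_zero hc0).symm
      _ ≤ ∑' j, μ (E j) := ENNReal.tsum_le_tsum hlow
  have hone := measure_limsup_eq_one hEm hEind hsum
  have hlm : MeasurableSet (limsup E atTop) := MeasurableSet.measurableSet_limsup hEm
  have hae : limsup E atTop ∈ ae μ := (mem_ae_iff_prob_eq_one hlm).2 hone
  filter_upwards [hae] with ω hω
  rw [mem_limsup_iff_frequently_mem] at hω
  refine hω.mono fun j hj => ?_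
  simp only [hE, Set.mem_iInter] at hj
  constructor
  · intro e he
    have := hj e (Finset.mem_union_left _ he)
    rw [hSLo j e he] at this
    exact this
  · intro e he
    have := hj e (Finset.mem_union_right _ he)
    rw [hSHi j e he] at this
    exact this

end Vale.Agent.Lib.P158
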