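import Vale.Agent.Lib.P158.BlockDef

/-!
# P158: crossing a block inside the strip is expensive
-/

namespace Vale.Agent.Lib.P158

open scoped NNReal

/-- a step which crosses the level `c` is horizontal, from `c - 1` to `c` -/
lemma adj_step {u w : ℤ × ℤ} (h : Z2.Adj u w) {c : ℤ} (h1 : u.1 < c) (h2 : c ≤ w.1) :
    u.1 = c - 1 ∧ w.1 = c ∧ u.2 = w.2 := by
  change |u.1 - w.1| + |u.2 - w.2| = 1 at h
  rcases abs_cases (u.1 - w.1) with ⟨e1, _⟩ | ⟨e1, _⟩ <;>
    rcases abs_cases (u.2 - w.2) with ⟨e2, _⟩ | ⟨e2, _⟩ <;>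
    rw [e1, e2] at h <;> refine ⟨?_, ?_, ?_⟩ <;> omega

/-- reaching the column `m + g` costs at least `g * b` -/
lemma cross_aux (τ : Edge → ℝ≥0) (K L : ℕ) (b : ℝ≥0) (m : ℤ) (v : ℕ → ℤ × ℤ)
    (hadj : ∀ i, Z2.Adj (v i) (v (i + 1))) (hstrip : ∀ i, |(v i).2| ≤ K)
    (hb : ∀ g : ℕ, g < L → ∀ y : ℤ, |y| ≤ K → b ≤ wt τ s((m + g, y), (m + g + 1, y)))
    (i : ℕ) (hi : (v i).1 = m) :
    ∀ g : ℕ, g ≤ L → ∀ j : ℕ, i ≤ j → m + g ≤ (v j).1 →
      (g : ℝ≥0) * b ≤ ∑ k ∈ Finset.Ico i j, wt τ s(v k, v (k + 1)) := by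
  intro g
  induction g with
  | zero =>
    intro _ j _ _
    simp
  | succ g ih =>
    intro hg j hij hj
    classical
    have hex : ∃ k, i ≤ k ∧ m + (g + 1 : ℕ) ≤ (v k).1 := ⟨j, hij, hj⟩
    obtain ⟨hf1, hf2⟩ := Nat.find_spec hex
    have hfj : Nat.find hex ≤ j := Nat.find_min' hex ⟨hij, hj⟩
    have hmin := fun k (hk : k < Nat.find hex) => Nat.find_min hex hk
    set j' := Nat.find hex with hj'
    have hne : j' ≠ i := by
      intro h
      rw [h, hi] at hf2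
      push_cast at hf2
      omega
    obtain ⟨k, hk⟩ : ∃ k, j' = k + 1 := ⟨j' - 1, by omega⟩
    have hik : i ≤ k := by omega
    have hkl : (v k).1 < m + (g + 1 : ℕ) := by
      by_contra hcon
      exact hmin k (by omega) ⟨hik, not_lt.1 hcon⟩
    rw [hk] at hf2
    obtain ⟨a1, a2, a3⟩ := adj_step (hadj k) hkl hf2
    have e1 : v k = (m + g, (v k).2) := by
      apply Prod.ext
      · rw [a1]
        push_cast
        ring
      · rfl
    have e2 : v (k + 1) = (m + g + 1, (v k).2) := by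
      apply Prod.ext
      · rw [a2]
        push_cast
        ring
      · exact a3.symm
    have hw : b ≤ wt τ s(v k, v (k + 1)) := by
      have := hb g (by omega) (v k).2 (hstrip k)
      rw [← e1, ← e2] at this
      exact this
    have hih := ih (by omega) k hik (by rw [a1]; push_cast; omega)
    calc ((g + 1 : ℕ) : ℝ≥0) * b = (g : ℝ≥0) * b + b := by
          push_cast
          ring
      _ ≤ ∑ l ∈ Finset.Ico i k, wt τ s(v l, v (l + 1)) + wt τ s(v k, v (k + 1)) :=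
          add_le_add hih hw
      _ = ∑ l ∈ Finset.Ico i (k + 1), wt τ s(v l, v (l + 1)) :=
          (Finset.sum_Ico_succ_top hik _).symm
      _ ≤ ∑ l ∈ Finset.Ico i j, wt τ s(v l, v (l + 1)) :=
          Finset.sum_le_sum_of_subset (Finset.Ico_subset_Ico_right (by omega))

/-- a path in the strip from the column `m` to the column `m+L` crosses each of the `L` gaps. -/
theorem cross_ge (τ : Edge → ℝ≥0) (K L : ℕ) (b : ℝ≥0) (m : ℤ) (v : ℕ → ℤ × ℤ)
    (hadj : ∀ i, Z2.Adj (v i) (v (i + 1))) (hstrip : ∀ i, |(v i).2| ≤ K)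
    (hb : ∀ g : ℕ, g < L → ∀ y : ℤ, |y| ≤ K → b ≤ wt τ s((m + g, y), (m + g + 1, y)))
    (i j : ℕ) (hij : i < j) (hi : (v i).1 = m) (hj : (v j).1 = m + L) :
    (L : ℝ≥0) * b ≤ ∑ k ∈ Finset.Ico i j, wt τ s(v k, v (k + 1)) :=
  cross_aux τ K L b m v hadj hstrip hb i hi L le_rfl j hij.le hj.ge

end Vale.Agent.Lib.P158
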