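import Vale.Agent.Lib.P158.Defs

/-!
# P158: paths in a strip (discrete intermediate value arguments)
-/

namespace Vale.Agent.Lib.P158

/-- an injective sequence in a strip is unbounded to the right or to the left. -/
theorem unbounded_of_strip (v : ℕ → ℤ × ℤ) (hinj : Function.Injective v) (K : ℕ)
    (hstrip : ∀ i, |(v i).2| ≤ K) :
    (∀ M : ℤ, ∃ i, M ≤ (v i).1) ∨ (∀ M : ℤ, ∃ i, (v i).1 ≤ M) := by
  by_contra hcon
  rw [not_or, not_forall, not_forall] at hcon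
  obtain ⟨⟨M1, h1⟩, ⟨M2, h2⟩⟩ := hcon
  rw [not_exists] at h1 h2
  have hfin : (Set.Ioo M2 M1 ×ˢ Set.Icc (-(K : ℤ)) K).Finite :=
    (Set.finite_Ioo _ _).prod (Set.finite_Icc _ _)
  have hsub : Set.range v ⊆ Set.Ioo M2 M1 ×ˢ Set.Icc (-(K : ℤ)) K := by
    rintro _ ⟨i, rfl⟩
    exact ⟨⟨not_le.1 (h2 i), not_le.1 (h1 i)⟩, abs_le.1 (hstrip i)⟩
  exact Set.infinite_range_of_injective hinj (hfin.subset hsub)

/-- a step which reaches the level `c` from below ends at `c` -/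
lemma adj_step_fst {u w : ℤ × ℤ} (h : Z2.Adj u w) {c : ℤ} (h1 : u.1 < c) (h2 : c ≤ w.1) :
    w.1 = c := by
  change |u.1 - w.1| + |u.2 - w.2| = 1 at h
  rcases abs_cases (u.1 - w.1) with ⟨e1, _⟩ | ⟨e1, _⟩ <;>
    rcases abs_cases (u.2 - w.2) with ⟨e2, _⟩ | ⟨e2, _⟩ <;>
    rw [e1, e2] at h <;> omega

/-- the first visit of the half plane `c ≤ x` is on the column `c` -/
lemma exists_first_hit (v : ℕ → ℤ × ℤ) (hadj : ∀ i, Z2.Adj (v i) (v (i + 1)))
    (hub : ∀ M : ℤ, ∃ i, M ≤ (v i).1) (c : ℤ) (hc : (v 0).1 ≤ c) :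
    ∃ i, (v i).1 = c ∧ ∀ k, k < i → (v k).1 < c := by
  classical
  have hs := Nat.find_spec (hub c)
  have hmin : ∀ k, k < Nat.find (hub c) → (v k).1 < c :=
    fun k hk => not_le.1 (Nat.find_min (hub c) hk)
  refine ⟨Nat.find (hub c), ?_, hmin⟩
  set i := Nat.find (hub c) with hi
  rcases Nat.eq_zero_or_pos i with h0 | h0
  · rw [h0] at hs ⊢
    omega
  · obtain ⟨k, hk⟩ : ∃ k, i = k + 1 := ⟨i - 1, by omega⟩
    rw [hk] at hs ⊢
    exact adj_step_fst (hadj k) (hmin k (by omega)) hs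

/-- discrete intermediate value theorem along the path. -/
theorem exists_cross (v : ℕ → ℤ × ℤ) (hadj : ∀ i, Z2.Adj (v i) (v (i + 1)))
    (hub : ∀ M : ℤ, ∃ i, M ≤ (v i).1) (m : ℤ) (hm : (v 0).1 ≤ m) (L : ℕ) (hL : 0 < L) :
    ∃ i j, i < j ∧ (v i).1 = m ∧ (v j).1 = m + L := by
  obtain ⟨i, hi, him⟩ := exists_first_hit v hadj hub m hm
  obtain ⟨j, hj, -⟩ := exists_first_hit v hadj hub (m + L) (by omega)
  refine ⟨i, j, ?_, hi, hj⟩
  by_contra hcon
  rcases Nat.lt_or_ge j i with h | h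
  · have := him j h
    omega
  · have : i = j := by omega
    rw [this] at hi
    omega

end Vale.Agent.Lib.P158
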