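import Vale.Agent.Lib.P158.Bypass
import Vale.Agent.Lib.P158.Cross
import Vale.Agent.Lib.P158.Geom

/-!
# P158: deterministic core
-/

namespace Vale.Agent.Lib.P158

open scoped NNReal

/-- deterministic core: good blocks arbitrarily far to the right exclude geodesic rays that stay in
the strip and are unbounded to the right. -/
theorem no_ray_of_good (τ : Edge → ℝ≥0) (K L : ℕ) (a b : ℝ≥0) (hL : 0 < L)
    (hab : ((L : ℝ≥0) + (4 * K + 2)) * a < L * b) (v : ℕ → ℤ × ℤ) (hv : IsRay τ v)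
    (hstrip : ∀ i, |(v i).2| ≤ K) (hub : ∀ M : ℤ, ∃ i, M ≤ (v i).1)
    (hgood : ∀ M : ℤ, ∃ m, M ≤ m ∧ Good τ K L a b m) : False := by
  obtain ⟨m, hm, hG⟩ := hgood (v 0).1
  obtain ⟨i, j, hij, hi, hj⟩ := exists_cross v hv.adj hub m hm L hL
  have h1 := cross_ge τ K L b m v hv.adj hstrip hG.1 i j hij hi hj
  have h2 := T_bypass_le τ K L a b m hG (v i).2 (v j).2 (hstrip i) (hstrip j)
  rw [hv.geo i j hij] at h1
  have e1 : v i = (m, (v i).2) := by rw [← hi]
  have e2 : v j = (m + L, (v j).2) := by rw [← hj]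
  rw [← e1, ← e2] at h2
  exact absurd (lt_of_le_of_lt (le_trans h1 h2) hab) (lt_irrefl _)

end Vale.Agent.Lib.P158
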