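import Vale.Agent.Lib.P158.Defs

/-!
# P158: the block event
-/

namespace Vale.Agent.Lib.P158

open scoped NNReal

/-- The block event at abscissa `m` (strip half-width `K`, block length `L`, levels `a`, `b`):
all horizontal edges of the strip `|y| ≤ K` over `[m, m+L]` cost at least `b`; the horizontal edges
of the row `K+1` over `[m, m+L]` and the vertical edges of the columns `m` and `m+L` between the
rows `-K` and `K+1` cost at most `a`. -/
def Good (τ : Edge → ℝ≥0) (K L : ℕ) (a b : ℝ≥0) (m : ℤ) : Prop :=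
  (∀ g : ℕ, g < L → ∀ y : ℤ, |y| ≤ K → b ≤ wt τ s((m + g, y), (m + g + 1, y))) ∧
  (∀ g : ℕ, g < L → wt τ s((m + g, (K : ℤ) + 1), (m + g + 1, (K : ℤ) + 1)) ≤ a) ∧
  (∀ y : ℤ, |y| ≤ K → wt τ s((m, y), (m, y + 1)) ≤ a) ∧
  (∀ y : ℤ, |y| ≤ K → wt τ s((m + L, y), (m + L, y + 1)) ≤ a)

end Vale.Agent.Lib.P158
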