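import Vale.Agent.Lib.P158.Time
import Vale.Agent.Lib.P158.BlockDef

/-!
# P158: the bypass around a good block
-/

namespace Vale.Agent.Lib.P158

open scoped NNReal

/-- climbing a cheap column from height `y` (with `|y| ≤ K`) to the row `K+1`. -/
theorem T_climb_le (τ : Edge → ℝ≥0) (K : ℕ) (a : ℝ≥0) (x : ℤ)
    (h : ∀ y : ℤ, |y| ≤ K → wt τ s((x, y), (x, y + 1)) ≤ a)
    (y : ℤ) (hy : |y| ≤ K) :
    T τ (x, y) (x, (K : ℤ) + 1) ≤ ((2 * K + 1 : ℕ) : ℝ≥0) * a := by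
  obtain ⟨hy1, hy2⟩ := abs_le.mp hy
  obtain ⟨n, hn⟩ : ∃ n : ℕ, (n : ℤ) = (K : ℤ) + 1 - y := ⟨((K : ℤ) + 1 - y).toNat, by omega⟩
  have h1 : T τ (x, y) (x, y + n) ≤ n * a := by
    apply T_vline_le
    intro g hg
    apply h
    rw [abs_le]
    constructor <;> omega
  have h2 : y + (n : ℤ) = (K : ℤ) + 1 := by omega
  rw [h2] at h1
  refine h1.trans ?_
  have h3 : n ≤ 2 * K + 1 := by omega
  have h4 : (n : ℝ≥0) ≤ ((2 * K + 1 : ℕ) : ℝ≥0) := by exact_mod_cast h3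
  exact mul_le_mul_of_nonneg_right h4 zero_le

/-- the bypass: up the column `m`, along the row `K+1`, down the column `m+L`. -/
theorem T_bypass_le (τ : Edge → ℝ≥0) (K L : ℕ) (a b : ℝ≥0) (m : ℤ) (hG : Good τ K L a b m)
    (y1 y2 : ℤ) (h1 : |y1| ≤ K) (h2 : |y2| ≤ K) :
    T τ (m, y1) (m + L, y2) ≤ ((L : ℝ≥0) + (4 * K + 2)) * a := by
  obtain ⟨-, hrow, hc1, hc2⟩ := hG
  have e1 := T_climb_le τ K a m hc1 y1 h1
  have e3 := T_climb_le τ K a (m + L) hc2 y2 h2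
  rw [T_symm] at e3
  have e2 : T τ (m, (K : ℤ) + 1) (m + L, (K : ℤ) + 1) ≤ L * a := T_hline_le τ a m _ L hrow
  have t1 := T_triangle τ (m, y1) (m, (K : ℤ) + 1) (m + L, y2)
  have t2 := T_triangle τ (m, (K : ℤ) + 1) (m + L, (K : ℤ) + 1) (m + L, y2)
  calc T τ (m, y1) (m + L, y2)
      ≤ ((2 * K + 1 : ℕ) : ℝ≥0) * a + (L * a + ((2 * K + 1 : ℕ) : ℝ≥0) * a) :=
        t1.trans (add_le_add e1 (t2.trans (add_le_add e2 e3)))
    _ = ((L : ℝ≥0) + (4 * K + 2)) * a := by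
        push_cast
        ring

end Vale.Agent.Lib.P158
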