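import Mathlib

/-!
# P158: first-passage percolation on the square lattice, definitions

Vertices are `ℤ × ℤ`, edges are the unoriented nearest-neighbour edges, a weight configuration is a
function `τ : Edge → ℝ≥0`.
-/

namespace Vale.Agent.Lib.P158

open scoped NNReal

/-- The square lattice `ℤ²` with nearest-neighbour edges. -/
def Z2 : SimpleGraph (ℤ × ℤ) where
  Adj u v := |u.1 - v.1| + |u.2 - v.2| = 1
  symm := ⟨by
    intro u v h
    rw [abs_sub_comm v.1 u.1, abs_sub_comm v.2 u.2]
    exact h⟩
  loopless := ⟨by
    intro u h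
    simp at h⟩

/-- The set of unoriented nearest-neighbour edges of `ℤ²` (as a type). -/
abbrev Edge : Type := Z2.edgeSet

/-- The weight of an unordered pair of vertices in the configuration `τ`
(the value `0` is used for pairs that are not edges; they never occur in walks). -/
noncomputable def wt (τ : Edge → ℝ≥0) (e : Sym2 (ℤ × ℤ)) : ℝ≥0 :=
  open Classical in if h : e ∈ Z2.edgeSet then τ ⟨e, h⟩ else 0

/-- The passage time of a finite nearest-neighbour path: the sum of the weights of the
traversed edges. -/
noncomputable def walkTime (τ : Edge → ℝ≥0) {x y : ℤ × ℤ} (p : Z2.Walk x y) : ℝ≥0 :=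
  (p.edges.map (wt τ)).sum

/-- The passage time `T(x,y)`: infimum of the passage times of the finite paths from `x` to `y`. -/
noncomputable def T (τ : Edge → ℝ≥0) (x y : ℤ × ℤ) : ℝ≥0 :=
  ⨅ p : Z2.Walk x y, walkTime τ p

/-- A geodesic ray: pairwise distinct vertices `v 0, v 1, ...`, consecutive ones adjacent,
every finite segment realising the passage time between its endpoints. -/
structure IsRay (τ : Edge → ℝ≥0) (v : ℕ → ℤ × ℤ) : Prop where
  inj : Function.Injective v
  adj : ∀ i, Z2.Adj (v i) (v (i + 1))
  geo : ∀ i j, i < j → ∑ k ∈ Finset.Ico i j, wt τ s(v k, v (k + 1)) = T τ (v i) (v j)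

/-- A bigeodesic: pairwise distinct vertices `(v i)`, `i ∈ ℤ`, consecutive ones adjacent,
every finite segment realising the passage time between its endpoints. -/
structure IsBigeodesic (τ : Edge → ℝ≥0) (v : ℤ → ℤ × ℤ) : Prop where
  inj : Function.Injective v
  adj : ∀ i, Z2.Adj (v i) (v (i + 1))
  geo : ∀ i j, i < j → ∑ k ∈ Finset.Ico i j, wt τ s(v k, v (k + 1)) = T τ (v i) (v j)

end Vale.Agent.Lib.P158
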