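import Vale.Agent.Lib.P158.Time

/-!
# P158: the two ends of a bigeodesic are geodesic rays
-/

namespace Vale.Agent.Lib.P158

open scoped NNReal

/-- reindexing a sum over an integer interval with natural end points -/
private theorem sum_Ico_cast (f : ℤ → ℝ≥0) (i j : ℕ) :
    ∑ k ∈ Finset.Ico i j, f (k : ℤ) = ∑ k ∈ Finset.Ico (i : ℤ) (j : ℤ), f k := by
  refine Finset.sum_bij' (fun k _ => (k : ℤ)) (fun k _ => k.toNat) ?_ ?_ ?_ ?_ ?_
  · intro k hk
    rw [Finset.mem_Ico] at hk ⊢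
    omega
  · intro k hk
    rw [Finset.mem_Ico] at hk ⊢
    omega
  · intro k _
    simp
  · intro k hk
    rw [Finset.mem_Ico] at hk
    have : 0 ≤ k := by omega
    simp [this]
  · intro k _
    rfl

/-- reindexing a sum over an integer interval by reflection -/
private theorem sum_Ico_neg (f : ℤ → ℝ≥0) (i j : ℕ) :
    ∑ k ∈ Finset.Ico i j, f (-(k : ℤ) - 1) = ∑ k ∈ Finset.Ico (-(j : ℤ)) (-(i : ℤ)), f k := by
  refine Finset.sum_bij' (fun k _ => -(k : ℤ) - 1) (fun k _ => (-k - 1).toNat) ?_ ?_ ?_ ?_ ?_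
  · intro k hk
    rw [Finset.mem_Ico] at hk ⊢
    omega
  · intro k hk
    rw [Finset.mem_Ico] at hk ⊢
    omega
  · intro k _
    have : (-(-(k : ℤ) - 1) - 1) = (k : ℤ) := by ring
    rw [this]
    simp
  · intro k hk
    rw [Finset.mem_Ico] at hk
    have h0 : 0 ≤ -k - 1 := by omega
    rw [Int.toNat_of_nonneg h0]
    ring
  · intro k _
    rfl

/-- the forward end of a bigeodesic is a geodesic ray -/
theorem IsBigeodesic.ray_pos {τ : Edge → ℝ≥0} {v : ℤ → ℤ × ℤ} (hv : IsBigeodesic τ v) :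
    IsRay τ (fun i : ℕ => v i) := by
  refine ⟨?_, ?_, ?_⟩
  · intro i j hij
    have := hv.inj hij
    exact_mod_cast this
  · intro i
    have := hv.adj (i : ℤ)
    simpa using this
  · intro i j hij
    have h := hv.geo (i : ℤ) (j : ℤ) (by exact_mod_cast hij)
    rw [← h, ← sum_Ico_cast (fun k => wt τ s(v k, v (k + 1))) i j]
    refine Finset.sum_congr rfl ?_
    intro k _
    simp

/-- the backward end of a bigeodesic is a geodesic ray -/
theorem IsBigeodesic.ray_neg {τ : Edge → ℝ≥0} {v : ℤ → ℤ × ℤ} (hv : IsBigeodesic τ v) :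
    IsRay τ (fun i : ℕ => v (-(i : ℤ))) := by
  refine ⟨?_, ?_, ?_⟩
  · intro i j hij
    have := hv.inj hij
    omega
  · intro i
    have h := hv.adj (-(i : ℤ) - 1)
    have e1 : -(i : ℤ) - 1 + 1 = -(i : ℤ) := by ring
    have e2 : -(((i + 1 : ℕ) : ℤ)) = -(i : ℤ) - 1 := by push_cast; ring
    rw [e1] at h
    show Z2.Adj (v (-(i : ℤ))) (v (-(((i + 1 : ℕ) : ℤ))))
    rw [e2]
    exact h.symm
  · intro i j hij
    have h := hv.geo (-(j : ℤ)) (-(i : ℤ)) (by omega)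
    show ∑ k ∈ Finset.Ico i j, wt τ s(v (-(k : ℤ)), v (-(((k + 1 : ℕ) : ℤ)))) =
      T τ (v (-(i : ℤ))) (v (-(j : ℤ)))
    rw [T_symm, ← h, ← sum_Ico_neg (fun k => wt τ s(v k, v (k + 1))) i j]
    refine Finset.sum_congr rfl ?_
    intro k _
    have e1 : -(k : ℤ) - 1 + 1 = -(k : ℤ) := by ring
    have e2 : -(((k + 1 : ℕ) : ℤ)) = -(k : ℤ) - 1 := by push_cast; ring
    show wt τ s(v (-(k : ℤ)), v (-(((k + 1 : ℕ) : ℤ)))) =
      wt τ s(v (-(k : ℤ) - 1), v (-(k : ℤ) - 1 + 1))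
    rw [e1, e2, Sym2.eq_swap]

end Vale.Agent.Lib.P158
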