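import Mathlib

/-!
# P158: two levels of a non-degenerate law; choice of the block length
-/

namespace Vale.Agent.Lib.P158

open scoped NNReal ENNReal
open MeasureTheory ProbabilityTheory Filter

/-- a law on `[0,∞)` that is not a point mass has two separated levels of positive probability -/
theorem exists_levels (G : Measure ℝ≥0) [IsProbabilityMeasure G] (hG : ∀ c, G {c} ≠ 1) :
    ∃ a b : ℝ≥0, a < b ∧ 0 < G (Set.Iic a) ∧ 0 < G (Set.Ici b) := by
  by_contra hcon
  have hcon' : ∀ a b : ℝ≥0, a < b → 0 < G (Set.Iic a) → G (Set.Ici b) = 0 := by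
    intro a b hab ha
    by_contra hb
    exact hcon ⟨a, b, hab, ha, pos_iff_ne_zero.mpr hb⟩
  set S : Set ℝ≥0 := {a | 0 < G (Set.Iic a)} with hS
  have hSne : S.Nonempty := by
    by_contra hne
    rw [Set.not_nonempty_iff_eq_empty] at hne
    have h0 : ∀ n : ℕ, G (Set.Iic (n : ℝ≥0)) = 0 := by
      intro n
      by_contra hn
      have : (n : ℝ≥0) ∈ S := pos_iff_ne_zero.mpr hn
      rw [hne] at this
      exact this
    have hU : (⋃ n : ℕ, Set.Iic (n : ℝ≥0)) = Set.univ := by
      ext x
      simp only [Set.mem_iUnion, Set.mem_Iic, Set.mem_univ, iff_true]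
      exact exists_nat_ge x
    have : G Set.univ = 0 := by
      rw [← hU]
      exact measure_iUnion_null h0
    rw [measure_univ] at this
    exact one_ne_zero this
  set c : ℝ≥0 := sInf S with hc
  have hup : G (Set.Ioi c) = 0 := by
    obtain ⟨u, -, hu1, hu2⟩ := exists_seq_strictAnti_tendsto c
    rw [← iUnion_Ici_eq_Ioi_of_lt_of_tendsto hu1 hu2]
    refine measure_iUnion_null ?_
    intro n
    obtain ⟨a, haS, hac⟩ := exists_lt_of_csInf_lt hSne (hu1 n)
    exact hcon' a (u n) hac haS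
  have hlow : G (Set.Iio c) = 0 := by
    rcases eq_or_lt_of_le (zero_le (a := c)) with h0 | h0
    · rw [← h0]
      have : Set.Iio (0 : ℝ≥0) = ∅ := by
        ext x
        simp
      rw [this]
      exact measure_empty
    · obtain ⟨u, -, hu1, hu2⟩ := exists_seq_strictMono_tendsto' h0
      rw [← iUnion_Iic_eq_Iio_of_lt_of_tendsto (fun n => (hu1 n).2) hu2]
      refine measure_iUnion_null ?_
      intro n
      by_contra hn
      have hmem : u n ∈ S := pos_iff_ne_zero.mpr hn
      have : c ≤ u n := csInf_le (OrderBot.bddBelow S) hmem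
      exact absurd (hu1 n).2 (not_lt.mpr this)
  apply hG c
  have hsplit : (Set.univ : Set ℝ≥0) = Set.Iio c ∪ {c} ∪ Set.Ioi c := by
    ext x
    simp only [Set.mem_univ, Set.mem_union, Set.mem_Iio, Set.mem_singleton_iff, Set.mem_Ioi,
      true_iff]
    rcases lt_trichotomy x c with h | h | h
    · exact Or.inl (Or.inl h)
    · exact Or.inl (Or.inr h)
    · exact Or.inr h
  have h1 : (1 : ℝ≥0∞) ≤ G {c} := by
    calc (1 : ℝ≥0∞) = G Set.univ := measure_univ.symm
      _ = G (Set.Iio c ∪ {c} ∪ Set.Ioi c) := by rw [← hsplit]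
      _ ≤ G (Set.Iio c ∪ {c}) + G (Set.Ioi c) := measure_union_le _ _
      _ ≤ G (Set.Iio c) + G {c} + G (Set.Ioi c) := by
          gcongr
          exact measure_union_le _ _
      _ = G {c} := by rw [hup, hlow]; simp
  exact le_antisymm prob_le_one h1

theorem exists_length (a b : ℝ≥0) (hab : a < b) (K : ℕ) :
    ∃ L : ℕ, 0 < L ∧ ((L : ℝ≥0) + (4 * K + 2)) * a < L * b := by
  have hab' : (a : ℝ) < b := by exact_mod_cast hab
  obtain ⟨n, hn⟩ := exists_nat_gt (((4 * K + 2 : ℝ)) * a / ((b : ℝ) - a))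
  refine ⟨n + 1, Nat.succ_pos n, ?_⟩
  have hpos : (0 : ℝ) < (b : ℝ) - a := sub_pos.mpr hab'
  rw [div_lt_iff₀ hpos] at hn
  rw [← NNReal.coe_lt_coe]
  push_cast
  nlinarith [hn, hpos]

end Vale.Agent.Lib.P158
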