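import Vale.Agent.Lib.P158.Time

/-!
# P158: lattice symmetries
-/

namespace Vale.Agent.Lib.P158

open scoped NNReal
open MeasureTheory ProbabilityTheory

/-- transport of a weight configuration by a lattice automorphism `φ`: the edge `φ e` receives the
weight of `e`. -/
noncomputable def pull (φ : Z2 ≃g Z2) (τ : Edge → ℝ≥0) : Edge → ℝ≥0 :=
  fun e => τ (φ.symm.mapEdgeSet e)

theorem wt_pull (φ : Z2 ≃g Z2) (τ : Edge → ℝ≥0) (u v : ℤ × ℤ) :
    wt (pull φ τ) s(φ u, φ v) = wt τ s(u, v) := by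
  classical
  unfold wt
  by_cases h : Z2.Adj u v
  · have h1 : s(u, v) ∈ Z2.edgeSet := h
    have h2 : s(φ u, φ v) ∈ Z2.edgeSet := φ.map_adj_iff.mpr h
    rw [dif_pos h1, dif_pos h2]
    unfold pull
    apply congrArg τ
    apply Subtype.ext
    simp [SimpleGraph.Iso.mapEdgeSet, SimpleGraph.Hom.mapEdgeSet]
  · have h1 : s(u, v) ∉ Z2.edgeSet := h
    have h2 : s(φ u, φ v) ∉ Z2.edgeSet := fun h' => h (φ.map_adj_iff.mp h')
    rw [dif_neg h1, dif_neg h2]

theorem walkTime_map (φ : Z2 ≃g Z2) (τ : Edge → ℝ≥0) {x y : ℤ × ℤ} (p : Z2.Walk x y) :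
    walkTime (pull φ τ) (p.map φ.toHom) = walkTime τ p := by
  unfold walkTime
  rw [SimpleGraph.Walk.edges_map, List.map_map]
  apply congrArg List.sum
  apply List.map_congr_left
  intro e _
  induction e using Sym2.ind with
  | _ u v => exact wt_pull φ τ u v

theorem T_pull_le (φ : Z2 ≃g Z2) (τ : Edge → ℝ≥0) (x y : ℤ × ℤ) :
    T (pull φ τ) (φ x) (φ y) ≤ T τ x y := by
  rcases isEmpty_or_nonempty (Z2.Walk x y) with h | h
  · have h' : IsEmpty (Z2.Walk (φ x) (φ y)) :=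
      ⟨fun q => h.false ((q.map φ.symm.toHom).copy (by simp) (by simp))⟩
    simp [T, iInf_of_isEmpty]
  · exact le_ciInf (fun p => (T_le_walkTime _ (p.map φ.toHom)).trans (walkTime_map φ τ p).le)

theorem pull_symm_pull (φ : Z2 ≃g Z2) (τ : Edge → ℝ≥0) : pull φ.symm (pull φ τ) = τ := by
  funext e
  unfold pull
  apply congrArg τ
  exact φ.mapEdgeSet.left_inv e

theorem T_pull (φ : Z2 ≃g Z2) (τ : Edge → ℝ≥0) (x y : ℤ × ℤ) :
    T (pull φ τ) (φ x) (φ y) = T τ x y := by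
  apply le_antisymm (T_pull_le φ τ x y)
  have h := T_pull_le φ.symm (pull φ τ) (φ x) (φ y)
  rw [pull_symm_pull] at h
  simpa using h

theorem IsRay.pull {τ : Edge → ℝ≥0} {v : ℕ → ℤ × ℤ} (φ : Z2 ≃g Z2) (hv : IsRay τ v) :
    IsRay (pull φ τ) (fun i => φ (v i)) where
  inj := φ.injective.comp hv.inj
  adj := fun i => φ.map_adj_iff.mpr (hv.adj i)
  geo := by
    intro i j hij
    simp only [wt_pull, T_pull]
    exact hv.geo i j hij

/-- the reflection `(x,y) ↦ (-x,y)` -/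
def reflX : Z2 ≃g Z2 where
  toFun := fun u => (-u.1, u.2)
  invFun := fun u => (-u.1, u.2)
  left_inv := fun u => by simp
  right_inv := fun u => by simp
  map_rel_iff' := by
    intro u v
    show |(-u.1) - (-v.1)| + |u.2 - v.2| = 1 ↔ |u.1 - v.1| + |u.2 - v.2| = 1
    rw [show (-u.1) - (-v.1) = -(u.1 - v.1) by ring, abs_neg]

/-- the reflection `(x,y) ↦ (y,x)` -/
def swapXY : Z2 ≃g Z2 where
  toFun := fun u => (u.2, u.1)
  invFun := fun u => (u.2, u.1)
  left_inv := fun u => by simp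
  right_inv := fun u => by simp
  map_rel_iff' := by
    intro u v
    show |u.2 - v.2| + |u.1 - v.1| = 1 ↔ |u.1 - v.1| + |u.2 - v.2| = 1
    rw [add_comm]

/-- the transported field is again independent -/
theorem iIndepFun_pull {Ω : Type*} [MeasurableSpace Ω] (μ : Measure Ω)
    (t : Edge → Ω → ℝ≥0) (hind : iIndepFun t μ) (φ : Z2 ≃g Z2) :
    iIndepFun (fun e => t (φ.symm.mapEdgeSet e)) μ :=
  hind.precomp φ.symm.mapEdgeSet.injective

end Vale.Agent.Lib.P158
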