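import Vale.Agent.Lib.P158.Prob
import Vale.Agent.Lib.P158.Sym
import Vale.Agent.Lib.P158.Ends

/-!
# P158: ends of geodesics leave every strip parallel to a coordinate axis
-/

namespace Vale.Agent.Lib.P158

open scoped NNReal
open MeasureTheory ProbabilityTheory

/-- the core statement seen through a lattice automorphism -/
theorem core_pull {Ω : Type*} [MeasurableSpace Ω] (μ : Measure Ω) [IsProbabilityMeasure μ]
    (t : Edge → Ω → ℝ≥0) (ht : ∀ e, Measurable (t e)) (hind : iIndepFun t μ)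
    (G : Measure ℝ≥0) (hlaw : ∀ e, μ.map (t e) = G) (hG : ∀ c, G {c} ≠ 1) (φ : Z2 ≃g Z2) :
    ∀ᵐ ω ∂μ, ∀ v : ℕ → ℤ × ℤ, IsRay (fun e => t e ω) v → ∀ K : ℕ, (∀ i, |(φ (v i)).2| ≤ K) →
      ¬ (∀ M : ℤ, ∃ i, M ≤ (φ (v i)).1) := by
  have h := core μ (fun e => t (φ.symm.mapEdgeSet e)) (fun e => ht _) (iIndepFun_pull μ t hind φ)
    G (fun e => hlaw _) hG
  filter_upwards [h] with ω hω v hv K hstrip
  exact hω (fun i => φ (v i)) (hv.pull φ) K hstrip

/-- Almost surely both coordinates are unbounded along every geodesic ray. -/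
theorem ray_unbounded {Ω : Type*} [MeasurableSpace Ω] (μ : Measure Ω) [IsProbabilityMeasure μ]
    (t : Edge → Ω → ℝ≥0) (ht : ∀ e, Measurable (t e)) (hind : iIndepFun t μ)
    (G : Measure ℝ≥0) (hlaw : ∀ e, μ.map (t e) = G) (hG : ∀ c, G {c} ≠ 1) :
    ∀ᵐ ω ∂μ, ∀ v : ℕ → ℤ × ℤ, IsRay (fun e => t e ω) v → ∀ K : ℕ,
      (∃ i, (K : ℤ) < |(v i).1|) ∧ (∃ i, (K : ℤ) < |(v i).2|) := by
  have h1 := core μ t ht hind G hlaw hG
  have h2 := core_pull μ t ht hind G hlaw hG reflX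
  have h3 := core_pull μ t ht hind G hlaw hG swapXY
  have h4 := core_pull μ t ht hind G hlaw hG (swapXY.trans reflX)
  filter_upwards [h1, h2, h3, h4] with ω h1 h2 h3 h4 v hv K
  constructor
  · by_contra hcon
    push Not at hcon
    have hstrip : ∀ i, |((fun i => swapXY (v i)) i).2| ≤ K := fun i => hcon i
    rcases unbounded_of_strip (fun i => swapXY (v i)) (swapXY.injective.comp hv.inj) K hstrip
      with hr | hl
    · exact h3 v hv K hcon hr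
    · refine h4 v hv K hcon ?_
      intro M
      obtain ⟨i, hi⟩ := hl (-M)
      refine ⟨i, ?_⟩
      have : ((swapXY.trans reflX) (v i)).1 = -(swapXY (v i)).1 := rfl
      rw [this]
      have hi' : (swapXY (v i)).1 ≤ -M := hi
      omega
  · by_contra hcon
    push Not at hcon
    rcases unbounded_of_strip v hv.inj K hcon with hr | hl
    · exact h1 v hv K hcon hr
    · refine h2 v hv K hcon ?_
      intro M
      obtain ⟨i, hi⟩ := hl (-M)
      refine ⟨i, ?_⟩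
      have : (reflX (v i)).1 = -(v i).1 := rfl
      rw [this]
      omega

/-- Almost surely both coordinates are unbounded along both ends of every bigeodesic. -/
theorem bigeodesic_ends_unbounded {Ω : Type*} [MeasurableSpace Ω] (μ : Measure Ω)
    [IsProbabilityMeasure μ]
    (t : Edge → Ω → ℝ≥0) (ht : ∀ e, Measurable (t e)) (hind : iIndepFun t μ)
    (G : Measure ℝ≥0) (hlaw : ∀ e, μ.map (t e) = G) (hG : ∀ c, G {c} ≠ 1) :
    ∀ᵐ ω ∂μ, ∀ v : ℤ → ℤ × ℤ, IsBigeodesic (fun e => t e ω) v → ∀ K : ℕ,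
      (∃ i : ℤ, 0 ≤ i ∧ (K : ℤ) < |(v i).1|) ∧ (∃ i : ℤ, 0 ≤ i ∧ (K : ℤ) < |(v i).2|) ∧
      (∃ i : ℤ, i ≤ 0 ∧ (K : ℤ) < |(v i).1|) ∧ (∃ i : ℤ, i ≤ 0 ∧ (K : ℤ) < |(v i).2|) := by
  filter_upwards [ray_unbounded μ t ht hind G hlaw hG] with ω hω v hv K
  obtain ⟨⟨i1, h1⟩, ⟨i2, h2⟩⟩ := hω _ hv.ray_pos K
  obtain ⟨⟨i3, h3⟩, ⟨i4, h4⟩⟩ := hω _ hv.ray_neg K
  exact ⟨⟨i1, by positivity, h1⟩, ⟨i2, by positivity, h2⟩, ⟨-(i3 : ℤ), by omega, h3⟩,
    ⟨-(i4 : ℤ), by omega, h4⟩⟩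

end Vale.Agent.Lib.P158
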