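import Vale.Agent.Lib.P158.BlockDef

/-!
# P158: the edge sets of the blocks
-/

namespace Vale.Agent.Lib.P158

open scoped NNReal

/-- horizontal edge from `(x,y)` to `(x+1,y)` -/
def hEdge (x y : ℤ) : Edge := ⟨s((x, y), (x + 1, y)), by
  rw [SimpleGraph.mem_edgeSet]
  show |x - (x + 1)| + |y - y| = 1
  simp⟩

/-- vertical edge from `(x,y)` to `(x,y+1)` -/
def vEdge (x y : ℤ) : Edge := ⟨s((x, y), (x, y + 1)), by
  rw [SimpleGraph.mem_edgeSet]
  show |x - x| + |y - (y + 1)| = 1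
  simp⟩

theorem wt_hEdge (τ : Edge → ℝ≥0) (x y : ℤ) : wt τ s((x, y), (x + 1, y)) = τ (hEdge x y) := by
  have h : s((x, y), (x + 1, y)) ∈ Z2.edgeSet := (hEdge x y).2
  unfold wt
  rw [dif_pos h]
  rfl

theorem wt_vEdge (τ : Edge → ℝ≥0) (x y : ℤ) : wt τ s((x, y), (x, y + 1)) = τ (vEdge x y) := by
  have h : s((x, y), (x, y + 1)) ∈ Z2.edgeSet := (vEdge x y).2
  unfold wt
  rw [dif_pos h]
  rfl

/-- the cheap edges of the block at `m` -/
noncomputable def LoSet (K L : ℕ) (m : ℤ) : Finset Edge :=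
  open Classical in
  ((Finset.range L).image fun g : ℕ => hEdge (m + g) ((K : ℤ) + 1)) ∪
  ((Finset.Icc (-(K : ℤ)) K).image fun y => vEdge m y) ∪
  ((Finset.Icc (-(K : ℤ)) K).image fun y => vEdge (m + L) y)

/-- the expensive edges of the block at `m` -/
noncomputable def HiSet (K L : ℕ) (m : ℤ) : Finset Edge :=
  open Classical in
  (Finset.range L ×ˢ Finset.Icc (-(K : ℤ)) K).image fun p => hEdge (m + (p.1 : ℕ)) p.2

private theorem hEdge_inj {x y x' y' : ℤ} (h : hEdge x y = hEdge x' y') : x = x' ∧ y = y' := by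
  have h1 : s((x, y), (x + 1, y)) = s((x', y'), (x' + 1, y')) := congrArg Subtype.val h
  rw [Sym2.eq_iff] at h1
  simp only [Prod.mk.injEq] at h1
  omega

private theorem vEdge_inj {x y x' y' : ℤ} (h : vEdge x y = vEdge x' y') : x = x' ∧ y = y' := by
  have h1 : s((x, y), (x, y + 1)) = s((x', y'), (x', y' + 1)) := congrArg Subtype.val h
  rw [Sym2.eq_iff] at h1
  simp only [Prod.mk.injEq] at h1
  omega

private theorem hEdge_ne_vEdge (x y x' y' : ℤ) : hEdge x y ≠ vEdge x' y' := by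
  intro h
  have h1 : s((x, y), (x + 1, y)) = s((x', y'), (x', y' + 1)) := congrArg Subtype.val h
  rw [Sym2.eq_iff] at h1
  simp only [Prod.mk.injEq] at h1
  omega

private theorem mem_LoSet {K L : ℕ} {m : ℤ} {e : Edge} :
    e ∈ LoSet K L m ↔ (∃ g : ℕ, g < L ∧ hEdge (m + g) ((K : ℤ) + 1) = e) ∨
      (∃ y : ℤ, (-(K : ℤ) ≤ y ∧ y ≤ K) ∧ vEdge m y = e) ∨
      (∃ y : ℤ, (-(K : ℤ) ≤ y ∧ y ≤ K) ∧ vEdge (m + L) y = e) := by
  classical
  unfold LoSet
  simp only [Finset.mem_union, Finset.mem_image, Finset.mem_range, Finset.mem_Icc, or_assoc]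

private theorem mem_HiSet {K L : ℕ} {m : ℤ} {e : Edge} :
    e ∈ HiSet K L m ↔ ∃ g : ℕ, ∃ y : ℤ, (g < L ∧ -(K : ℤ) ≤ y ∧ y ≤ K) ∧ hEdge (m + g) y = e := by
  classical
  unfold HiSet
  simp only [Finset.mem_image, Finset.mem_product, Finset.mem_range, Finset.mem_Icc, Prod.exists]

theorem good_of_sets (τ : Edge → ℝ≥0) (K L : ℕ) (a b : ℝ≥0) (m : ℤ)
    (h1 : ∀ e ∈ LoSet K L m, τ e ≤ a) (h2 : ∀ e ∈ HiSet K L m, b ≤ τ e) : Good τ K L a b m := by
  refine ⟨?_, ?_, ?_, ?_⟩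
  · intro g hg y hy
    rw [wt_hEdge]
    rw [abs_le] at hy
    exact h2 _ (mem_HiSet.2 ⟨g, y, ⟨hg, hy.1, hy.2⟩, rfl⟩)
  · intro g hg
    rw [wt_hEdge]
    exact h1 _ (mem_LoSet.2 (Or.inl ⟨g, hg, rfl⟩))
  · intro y hy
    rw [wt_vEdge]
    rw [abs_le] at hy
    exact h1 _ (mem_LoSet.2 (Or.inr (Or.inl ⟨y, hy, rfl⟩)))
  · intro y hy
    rw [wt_vEdge]
    rw [abs_le] at hy
    exact h1 _ (mem_LoSet.2 (Or.inr (Or.inr ⟨y, hy, rfl⟩)))

private theorem card_Icc_K (K : ℕ) : (Finset.Icc (-(K : ℤ)) K).card = 2 * K + 1 := by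
  rw [Int.card_Icc]
  omega

theorem LoSet_card_le (K L : ℕ) (m : ℤ) : (LoSet K L m).card ≤ (L + 2) * (2 * K + 2) := by
  classical
  unfold LoSet
  have h1 := Finset.card_image_le (s := Finset.range L)
    (f := fun g : ℕ => hEdge (m + g) ((K : ℤ) + 1))
  have h2 := Finset.card_image_le (s := Finset.Icc (-(K : ℤ)) K) (f := fun y => vEdge m y)
  have h3 := Finset.card_image_le (s := Finset.Icc (-(K : ℤ)) K) (f := fun y => vEdge (m + L) y)
  rw [Finset.card_range] at h1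
  rw [card_Icc_K] at h2 h3
  have h4 := Finset.card_union_le
    (((Finset.range L).image fun g : ℕ => hEdge (m + g) ((K : ℤ) + 1)) ∪
      ((Finset.Icc (-(K : ℤ)) K).image fun y => vEdge m y))
    ((Finset.Icc (-(K : ℤ)) K).image fun y => vEdge (m + L) y)
  have h5 := Finset.card_union_le
    ((Finset.range L).image fun g : ℕ => hEdge (m + g) ((K : ℤ) + 1))
    ((Finset.Icc (-(K : ℤ)) K).image fun y => vEdge m y)
  have h6 : L + (2 * K + 1) + (2 * K + 1) ≤ (L + 2) * (2 * K + 2) := by nlinarith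
  omega

theorem HiSet_card_le (K L : ℕ) (m : ℤ) : (HiSet K L m).card ≤ (L + 2) * (2 * K + 2) := by
  classical
  unfold HiSet
  have h1 := Finset.card_image_le (s := Finset.range L ×ˢ Finset.Icc (-(K : ℤ)) K)
    (f := fun p : ℕ × ℤ => hEdge (m + (p.1 : ℕ)) p.2)
  rw [Finset.card_product, Finset.card_range, card_Icc_K] at h1
  have h6 : L * (2 * K + 1) ≤ (L + 2) * (2 * K + 2) := by nlinarith
  omega

theorem Lo_Hi_disjoint (K L : ℕ) (m : ℤ) : Disjoint (LoSet K L m) (HiSet K L m) := by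
  rw [Finset.disjoint_left]
  intro e he he'
  rw [mem_HiSet] at he'
  obtain ⟨g', y', ⟨_, hy1, hy2⟩, rfl⟩ := he'
  rw [mem_LoSet] at he
  rcases he with ⟨g, _, h⟩ | ⟨y, _, h⟩ | ⟨y, _, h⟩
  · have := hEdge_inj h
    omega
  · exact hEdge_ne_vEdge _ _ _ _ h.symm
  · exact hEdge_ne_vEdge _ _ _ _ h.symm

private theorem key (L j j' : ℕ) (r r' : ℤ) (h0 : 0 ≤ r) (h1 : r ≤ L) (h0' : 0 ≤ r')
    (h1' : r' ≤ L) (h : (j : ℤ) * (L + 1) + r = (j' : ℤ) * (L + 1) + r') : j = j' := by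
  rcases lt_trichotomy j j' with hlt | heq | hgt
  · exfalso
    have h2 : (j : ℤ) + 1 ≤ j' := by exact_mod_cast hlt
    have h3 : ((j : ℤ) + 1) * ((L : ℤ) + 1) ≤ (j' : ℤ) * ((L : ℤ) + 1) :=
      mul_le_mul_of_nonneg_right h2 (by positivity)
    have h4 : ((j : ℤ) + 1) * ((L : ℤ) + 1) = (j : ℤ) * ((L : ℤ) + 1) + ((L : ℤ) + 1) := by ring
    linarith
  · exact heq
  · exfalso
    have h2 : (j' : ℤ) + 1 ≤ j := by exact_mod_cast hgt
    have h3 : ((j' : ℤ) + 1) * ((L : ℤ) + 1) ≤ (j : ℤ) * ((L : ℤ) + 1) :=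
      mul_le_mul_of_nonneg_right h2 (by positivity)
    have h4 : ((j' : ℤ) + 1) * ((L : ℤ) + 1) = (j' : ℤ) * ((L : ℤ) + 1) + ((L : ℤ) + 1) := by ring
    linarith

/-- blocks at abscissas differing by a nonzero multiple of `L + 1` use disjoint sets of edges -/
theorem blocks_disjoint (K L : ℕ) (j j' : ℕ) (h : j ≠ j') :
    Disjoint (LoSet K L ((j : ℤ) * (L + 1))) (LoSet K L ((j' : ℤ) * (L + 1))) ∧
    Disjoint (LoSet K L ((j : ℤ) * (L + 1))) (HiSet K L ((j' : ℤ) * (L + 1))) ∧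
    Disjoint (HiSet K L ((j : ℤ) * (L + 1))) (HiSet K L ((j' : ℤ) * (L + 1))) := by
  have hL : (0 : ℤ) ≤ (L : ℤ) := by positivity
  refine ⟨?_, ?_, ?_⟩
  · rw [Finset.disjoint_left]
    intro e he he'
    rw [mem_LoSet] at he he'
    rcases he with ⟨g, hg, rfl⟩ | ⟨y, _, rfl⟩ | ⟨y, _, rfl⟩ <;>
      rcases he' with ⟨g', hg', h'⟩ | ⟨y', _, h'⟩ | ⟨y', _, h'⟩
    · exact h (key L j j' g g' (by positivity) (by exact_mod_cast hg.le) (by positivity)
        (by exact_mod_cast hg'.le) (hEdge_inj h').1.symm)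
    · exact hEdge_ne_vEdge _ _ _ _ h'.symm
    · exact hEdge_ne_vEdge _ _ _ _ h'.symm
    · exact hEdge_ne_vEdge _ _ _ _ h'
    · exact h (key L j j' 0 0 le_rfl hL le_rfl hL (by have := (vEdge_inj h').1; linarith))
    · exact h (key L j j' 0 L le_rfl hL hL le_rfl (by have := (vEdge_inj h').1; linarith))
    · exact hEdge_ne_vEdge _ _ _ _ h'
    · exact h (key L j j' L 0 hL le_rfl le_rfl hL (by have := (vEdge_inj h').1; linarith))
    · exact h (key L j j' L L hL le_rfl hL le_rfl (by have := (vEdge_inj h').1; linarith))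
  · rw [Finset.disjoint_left]
    intro e he he'
    rw [mem_LoSet] at he
    rw [mem_HiSet] at he'
    obtain ⟨g', y', ⟨hg', _, _⟩, h'⟩ := he'
    rcases he with ⟨g, hg, rfl⟩ | ⟨y, _, rfl⟩ | ⟨y, _, rfl⟩
    · exact h (key L j j' g g' (by positivity) (by exact_mod_cast hg.le) (by positivity)
        (by exact_mod_cast hg'.le) (hEdge_inj h').1.symm)
    · exact hEdge_ne_vEdge _ _ _ _ h'
    · exact hEdge_ne_vEdge _ _ _ _ h'
  · rw [Finset.disjoint_left]
    intro e he he'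
    rw [mem_HiSet] at he he'
    obtain ⟨g, y, ⟨hg, _, _⟩, rfl⟩ := he
    obtain ⟨g', y', ⟨hg', _, _⟩, h'⟩ := he'
    exact h (key L j j' g g' (by positivity) (by exact_mod_cast hg.le) (by positivity)
      (by exact_mod_cast hg'.le) (hEdge_inj h').1.symm)

end Vale.Agent.Lib.P158
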