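import Vale.Agent.Lib.P158.Block
import Vale.Agent.Lib.P158.BC
import Vale.Agent.Lib.P158.Sets
import Vale.Agent.Lib.P158.Levels

/-!
# P158: good blocks occur almost surely; the core statement
-/

namespace Vale.Agent.Lib.P158

open scoped NNReal ENNReal
open MeasureTheory ProbabilityTheory Filter

/-- almost surely there are good blocks arbitrarily far to the right -/
theorem ae_good {Ω : Type*} [MeasurableSpace Ω] (μ : Measure Ω) [IsProbabilityMeasure μ]
    (t : Edge → Ω → ℝ≥0) (ht : ∀ e, Measurable (t e)) (hind : iIndepFun t μ)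
    (G : Measure ℝ≥0) (hlaw : ∀ e, μ.map (t e) = G) (a b : ℝ≥0)
    (ha : 0 < G (Set.Iic a)) (hb : 0 < G (Set.Ici b)) (K L : ℕ) :
    ∀ᵐ ω ∂μ, ∀ M : ℤ, ∃ m, M ≤ m ∧ Good (fun e => t e ω) K L a b m := by
  have h := ae_frequently_of_disjoint μ t ht hind G hlaw a b ha hb
    (fun j => LoSet K L ((j : ℤ) * (L + 1))) (fun j => HiSet K L ((j : ℤ) * (L + 1)))
    ((L + 2) * (2 * K + 2)) (fun j => LoSet_card_le K L _) (fun j => HiSet_card_le K L _)
    (fun j => Lo_Hi_disjoint K L _)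
    (fun j j' hjj => blocks_disjoint K L j j' hjj)
  filter_upwards [h] with ω hω M
  obtain ⟨j, hj, hj2⟩ := (hω.and_eventually (eventually_ge_atTop M.toNat)).exists
  refine ⟨(j : ℤ) * (L + 1), ?_, good_of_sets _ K L a b _ hj.1 hj.2⟩
  have h1 : M ≤ (M.toNat : ℤ) := Int.self_le_toNat M
  have h2 : (M.toNat : ℤ) ≤ j := by exact_mod_cast hj2
  have h3 : (j : ℤ) ≤ (j : ℤ) * (L + 1) := by
    have : (0 : ℤ) ≤ (j : ℤ) * L := by positivity
    nlinarith
  omega

/-- Core statement: almost surely no geodesic ray stays in a horizontal strip and is unbounded to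
the right. -/
theorem core {Ω : Type*} [MeasurableSpace Ω] (μ : Measure Ω) [IsProbabilityMeasure μ]
    (t : Edge → Ω → ℝ≥0) (ht : ∀ e, Measurable (t e)) (hind : iIndepFun t μ)
    (G : Measure ℝ≥0) (hlaw : ∀ e, μ.map (t e) = G) (hG : ∀ c, G {c} ≠ 1) :
    ∀ᵐ ω ∂μ, ∀ v : ℕ → ℤ × ℤ, IsRay (fun e => t e ω) v → ∀ K : ℕ, (∀ i, |(v i).2| ≤ K) →
      ¬ (∀ M : ℤ, ∃ i, M ≤ (v i).1) := by
  have hGp : IsProbabilityMeasure G := by
    rw [← hlaw (hEdge 0 0)]
    exact Measure.isProbabilityMeasure_map (ht _).aemeasurable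
  obtain ⟨a, b, hab, ha, hb⟩ := exists_levels G hG
  choose L hL0 hL using exists_length a b hab
  have h : ∀ᵐ ω ∂μ, ∀ K : ℕ, ∀ M : ℤ, ∃ m, M ≤ m ∧ Good (fun e => t e ω) K (L K) a b m := by
    rw [ae_all_iff]
    intro K
    exact ae_good μ t ht hind G hlaw a b ha hb K (L K)
  filter_upwards [h] with ω hω v hv K hstrip hub
  exact no_ray_of_good _ K (L K) a b (hL0 K) (hL K) v hv hstrip hub (hω K)

end Vale.Agent.Lib.P158
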