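import Vale.Agent.Lib.P158.Defs

/-!
# P158: elementary properties of the passage time (upper bounds only)
-/

namespace Vale.Agent.Lib.P158

open scoped NNReal

theorem T_le_walkTime (τ : Edge → ℝ≥0) {x y : ℤ × ℤ} (p : Z2.Walk x y) :
    T τ x y ≤ walkTime τ p :=
  ciInf_le (OrderBot.bddBelow _) p

theorem T_self (τ : Edge → ℝ≥0) (x : ℤ × ℤ) : T τ x x = 0 := by
  have h := T_le_walkTime τ (SimpleGraph.Walk.nil : Z2.Walk x x)
  simpa [walkTime] using h

theorem T_le_edge (τ : Edge → ℝ≥0) {x y : ℤ × ℤ} (h : Z2.Adj x y) :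
    T τ x y ≤ wt τ s(x, y) := by
  have h1 := T_le_walkTime τ (SimpleGraph.Walk.cons h SimpleGraph.Walk.nil)
  simpa [walkTime] using h1

/-- The square lattice is connected: there is a walk between any two vertices. -/
theorem walk_nonempty (x y : ℤ × ℤ) : Nonempty (Z2.Walk x y) := by
  have hstep1 : ∀ (a b : ℤ) (n : ℕ), Z2.Reachable (a, b) (a + n, b) := by
    intro a b n
    induction n with
    | zero => simp
    | succ n ih =>
      refine ih.trans (SimpleGraph.Adj.reachable ?_)
      change |(a + (n : ℤ)) - (a + ((n + 1 : ℕ) : ℤ))| + |b - b| = 1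
      have : (a + (n : ℤ)) - (a + ((n + 1 : ℕ) : ℤ)) = -1 := by push_cast; ring
      rw [this]
      simp
  have hstep2 : ∀ (a b : ℤ) (n : ℕ), Z2.Reachable (a, b) (a, b + n) := by
    intro a b n
    induction n with
    | zero => simp
    | succ n ih =>
      refine ih.trans (SimpleGraph.Adj.reachable ?_)
      change |a - a| + |(b + (n : ℤ)) - (b + ((n + 1 : ℕ) : ℤ))| = 1
      have : (b + (n : ℤ)) - (b + ((n + 1 : ℕ) : ℤ)) = -1 := by push_cast; ring
      rw [this]
      simp
  have h1 : ∀ a a' b : ℤ, Z2.Reachable (a, b) (a', b) := by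
    intro a a' b
    rcases le_total a a' with h | h
    · obtain ⟨n, hn⟩ := Int.eq_ofNat_of_zero_le (sub_nonneg.2 h)
      have := hstep1 a b n
      rwa [← hn, add_sub_cancel] at this
    · obtain ⟨n, hn⟩ := Int.eq_ofNat_of_zero_le (sub_nonneg.2 h)
      have := hstep1 a' b n
      rw [← hn, add_sub_cancel] at this
      exact this.symm
  have h2 : ∀ a b b' : ℤ, Z2.Reachable (a, b) (a, b') := by
    intro a b b'
    rcases le_total b b' with h | h
    · obtain ⟨n, hn⟩ := Int.eq_ofNat_of_zero_le (sub_nonneg.2 h)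
      have := hstep2 a b n
      rwa [← hn, add_sub_cancel] at this
    · obtain ⟨n, hn⟩ := Int.eq_ofNat_of_zero_le (sub_nonneg.2 h)
      have := hstep2 a b' n
      rw [← hn, add_sub_cancel] at this
      exact this.symm
  exact (h1 x.1 y.1 x.2).trans (h2 y.1 x.2 y.2)

theorem walkTime_append (τ : Edge → ℝ≥0) {x y z : ℤ × ℤ} (p : Z2.Walk x y) (q : Z2.Walk y z) :
    walkTime τ (p.append q) = walkTime τ p + walkTime τ q := by
  simp [walkTime, SimpleGraph.Walk.edges_append]

theorem walkTime_reverse (τ : Edge → ℝ≥0) {x y : ℤ × ℤ} (p : Z2.Walk x y) :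
    walkTime τ p.reverse = walkTime τ p := by
  simp [walkTime, SimpleGraph.Walk.edges_reverse, List.map_reverse, List.sum_reverse]

theorem T_triangle (τ : Edge → ℝ≥0) (x y z : ℤ × ℤ) : T τ x z ≤ T τ x y + T τ y z := by
  have := walk_nonempty x y
  have := walk_nonempty y z
  have h : ∀ (p : Z2.Walk x y) (q : Z2.Walk y z), T τ x z ≤ walkTime τ p + walkTime τ q := by
    intro p q
    rw [← walkTime_append]
    exact T_le_walkTime τ _
  have h1 : ∀ q : Z2.Walk y z, T τ x z ≤ T τ x y + walkTime τ q := by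
    intro q
    have : T τ x z - walkTime τ q ≤ T τ x y :=
      le_ciInf fun p => tsub_le_iff_right.2 (h p q)
    exact tsub_le_iff_right.1 this
  have : T τ x z - T τ x y ≤ T τ y z :=
    le_ciInf fun q => tsub_le_iff_left.2 (h1 q)
  exact tsub_le_iff_left.1 this

theorem T_symm (τ : Edge → ℝ≥0) (x y : ℤ × ℤ) : T τ x y = T τ y x := by
  have h : ∀ x y : ℤ × ℤ, T τ x y ≤ T τ y x := by
    intro x y
    have := walk_nonempty y x
    refine le_ciInf fun p => ?_
    rw [← walkTime_reverse]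
    exact T_le_walkTime τ _
  exact le_antisymm (h x y) (h y x)

/-- horizontal segment all of whose edges have weight at most `a` -/
theorem T_hline_le (τ : Edge → ℝ≥0) (a : ℝ≥0) (x y : ℤ) (n : ℕ)
    (h : ∀ g : ℕ, g < n → wt τ s((x + g, y), (x + g + 1, y)) ≤ a) :
    T τ (x, y) (x + n, y) ≤ n * a := by
  induction n with
  | zero => simp [T_self]
  | succ n ih =>
    have h1 := ih fun g hg => h g (Nat.lt_succ_of_lt hg)
    have hadj : Z2.Adj (x + (n : ℤ), y) (x + (n : ℤ) + 1, y) := by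
      change |(x + (n : ℤ)) - (x + (n : ℤ) + 1)| + |y - y| = 1
      have : (x + (n : ℤ)) - (x + (n : ℤ) + 1) = -1 := by ring
      rw [this]
      simp
    have h2 := (T_le_edge τ hadj).trans (h n (Nat.lt_succ_self n))
    have h3 := T_triangle τ (x, y) (x + (n : ℤ), y) (x + (n : ℤ) + 1, y)
    have e : x + ((n + 1 : ℕ) : ℤ) = x + (n : ℤ) + 1 := by push_cast; ring
    rw [e]
    calc T τ (x, y) (x + (n : ℤ) + 1, y) ≤ n * a + a := h3.trans (add_le_add h1 h2)
      _ = ((n + 1 : ℕ) : ℝ≥0) * a := by push_cast; ring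

/-- vertical segment all of whose edges have weight at most `a` -/
theorem T_vline_le (τ : Edge → ℝ≥0) (a : ℝ≥0) (x y : ℤ) (n : ℕ)
    (h : ∀ g : ℕ, g < n → wt τ s((x, y + g), (x, y + g + 1)) ≤ a) :
    T τ (x, y) (x, y + n) ≤ n * a := by
  induction n with
  | zero => simp [T_self]
  | succ n ih =>
    have h1 := ih fun g hg => h g (Nat.lt_succ_of_lt hg)
    have hadj : Z2.Adj (x, y + (n : ℤ)) (x, y + (n : ℤ) + 1) := by
      change |x - x| + |(y + (n : ℤ)) - (y + (n : ℤ) + 1)| = 1
      have : (y + (n : ℤ)) - (y + (n : ℤ) + 1) = -1 := by ring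
      rw [this]
      simp
    have h2 := (T_le_edge τ hadj).trans (h n (Nat.lt_succ_self n))
    have h3 := T_triangle τ (x, y) (x, y + (n : ℤ)) (x, y + (n : ℤ) + 1)
    have e : y + ((n + 1 : ℕ) : ℤ) = y + (n : ℤ) + 1 := by push_cast; ring
    rw [e]
    calc T τ (x, y) (x, y + (n : ℤ) + 1) ≤ n * a + a := h3.trans (add_le_add h1 h2)
      _ = ((n + 1 : ℕ) : ℝ≥0) * a := by push_cast; ring

end Vale.Agent.Lib.P158
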